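import Vale.Agent.P036.AE.Defs
import Vale.Agent.P036.AE.Final

/-!
# P036: Heilbronn's triangle problem for sets with additive structure

`area p q r` is the area of the triangle `p q r`, `Delta P` the smallest area of a triangle with
three distinct vertices in `P`, and `short k P` the set of the vectors `q - p`, where `p ≠ q` are
points of `P` in the same cell of the grid of mesh `1 / k` (see `Vale.Agent.P036.AE.Defs`). `Finset.addEnergy P P` (Mathlib) is the additive energy: the number of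
quadruples `(a, b, c, d)` in `P` with `a + c = b + d`.
-/

namespace Vale.Agent.Results.P036.AdditiveEnergy

open Vale.Agent.P036.AE

/-- (1) If a set `P` of `n ≥ 3` points of the unit square has additive energy at least `n ^ 3 / K`,
then `Δ(P) ≤ 2 ^ 66 K ^ 20 n ^ (-3/2)`.

(2) For every `ε > 0` there are `δ > 0` and `n₀` such that `Δ(P) ≤ n ^ (-3/2 + ε)` for every set
`P` of `n ≥ n₀` points of the unit square with additive energy at least `n ^ (3 - δ)`.

(3) Let `k ≥ 1`, `2 (k + 1) ^ 2 ≤ n`, and let `P` be a set of `n` points of the unit square whose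
pairs of distinct points in common cells of the grid of mesh `1 / k` have at most `M ≤ n / 3`
different difference vectors. Then `Δ(P) ≤ 16 k M / n ^ 2`. -/
theorem result :
    (∀ (P : Finset (ℝ × ℝ)) (K : ℝ), InSquare P → 3 ≤ P.card → 1 ≤ K →
      (P.card : ℝ) ^ 3 ≤ K * (Finset.addEnergy P P : ℝ) →
      Delta P ≤ 2 ^ 66 * K ^ 20 * (P.card : ℝ) ^ (-(3 / 2) : ℝ)) ∧
    (∀ ε : ℝ, 0 < ε → ∃ δ : ℝ, 0 < δ ∧ ∃ n₀ : ℕ, ∀ P : Finset (ℝ × ℝ), InSquare P →
      n₀ ≤ P.card → (P.card : ℝ) ^ (3 - δ) ≤ (Finset.addEnergy P P : ℝ) →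
      Delta P ≤ (P.card : ℝ) ^ (-(3 / 2) + ε)) ∧
    (∀ (P : Finset (ℝ × ℝ)) (k M : ℕ), InSquare P → 0 < k → 2 * (k + 1) ^ 2 ≤ P.card →
      (short k P).card ≤ M → 3 * M ≤ P.card →
      Delta P ≤ 16 * k * M / (P.card : ℝ) ^ 2) :=
  final

end Vale.Agent.Results.P036.AdditiveEnergy
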