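import Vale.Agent.P036.Main

/-!
# P036: the minimal triangle area is at most `C * D / n^(3/2)` when the half-plane
discrepancy of the `n` points is at most `D`
-/

namespace Vale.Agent.Results.P036.Discrepancy

open Vale.Agent.P036

/-- There is an absolute constant `C` such that every set `P` of `n ≥ 3` points of the unit
square whose half-plane discrepancy is at most `D` (with `D ≥ 1`) contains three distinct
points spanning a triangle of area at most `C * D / n^(3/2)`. -/
theorem result : ∃ C : ℝ, 0 < C ∧ ∀ P : Finset (Fin 2 → ℝ), (∀ x ∈ P, x ∈ unitSquare) →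
    3 ≤ P.card → ∀ D : ℝ, 1 ≤ D → HasDisc P D →
    ∃ p ∈ P, ∃ q ∈ P, ∃ r ∈ P, p ≠ q ∧ p ≠ r ∧ q ≠ r ∧
      area p q r ≤ C * D / (P.card : ℝ) ^ (3 / 2 : ℝ) := by
  refine ⟨640, by norm_num, fun P hP h3 D hD1 hD => ?_⟩
  obtain ⟨p, hp, q, hq, r, hr, h1, h2, h4, h5⟩ := main P hP h3 D hD1 hD
  refine ⟨p, hp, q, hq, r, hr, h1, h2, h4, ?_⟩
  have hn : (0 : ℝ) < P.card := by
    have : 0 < P.card := by omega
    exact_mod_cast this
  have e : (P.card : ℝ) ^ (3 / 2 : ℝ) = P.card * Real.sqrt P.card := by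
    rw [Real.sqrt_eq_rpow, show (3 / 2 : ℝ) = 1 + 1 / 2 by norm_num, Real.rpow_add hn,
      Real.rpow_one]
  rw [e]
  exact h5

end Vale.Agent.Results.P036.Discrepancy
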