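import Vale.Agent.P036h.Final
import Vale.Agent.P036h.Roth

/-!
Heilbronn's triangle problem for sets with additive structure and for sets on short, slowly
turning paths.
-/

namespace Vale.Agent.Results.P036.StructuredSets

open Vale.Agent.P036h Finset
open scoped Pointwise Classical

/-- (0) For every `K` there is `n₀` such that a set `P` of `n ≥ n₀` points of the plane whose
additive energy is at least `n ^ 3 / K` spans a triangle of area zero.
For a finite set `P` of `n` points in the unit square: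
(1) additive energy at least `n ^ (3 - δ)` gives a triangle of area at most
`2 ^ 48 * n ^ (14 * δ - 3 / 2)`;
(2) `|P - P| ≤ K * n` gives a triangle of area at most `432 * K ^ 3 * n ^ (-3 / 2)`;
(3) if `M` difference vectors of `P` have both coordinates less than `1 / k` in absolute value
then there is a triangle of area at most `32 * k * M / n ^ 2`;
(4) if `P` is covered by `k` polygonal paths of length at most `L` and total turning at most `T`
then there is a triangle of area at most `365 * (L ^ 2 * T * k ^ 3) / n ^ 3`; so there is one of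
area at most `365 * n ^ (-2 + ε)` as soon as `L ^ 2 * T * k ^ 3 ≤ n ^ (1 + ε)`. -/
theorem result :
    (∀ K : ℝ, 1 ≤ K → ∃ n₀ : ℕ, ∀ P : Finset Pt, n₀ ≤ P.card →
      (P.card : ℝ) ^ 3 ≤ K * (Finset.addEnergy P P : ℝ) → HasTriangle P 0) ∧
    (∀ (P : Finset Pt) (δ : ℝ), InSquare P → 3 ≤ P.card → 0 ≤ δ →
      (P.card : ℝ) ^ (3 - δ) ≤ (Finset.addEnergy P P : ℝ) →
      HasTriangle P (2 ^ 48 * (P.card : ℝ) ^ (14 * δ - 3 / 2))) ∧
    (∀ (P : Finset Pt) (K : ℝ), InSquare P → 3 ≤ P.card →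
      ((P - P).card : ℝ) ≤ K * P.card →
      HasTriangle P (432 * K ^ 3 * (P.card : ℝ) ^ (-(3 / 2) : ℝ))) ∧
    (∀ (P : Finset Pt) (k : ℕ), InSquare P → 1 ≤ k → 2 * (k + 1) ^ 2 ≤ P.card →
      HasTriangle P (32 * k * ((P - P).filter
        (fun d => |d 0| < 1 / (k : ℝ) ∧ |d 1| < 1 / (k : ℝ))).card / (P.card : ℝ) ^ 2)) ∧
    (∀ (P : Finset Pt) (k : ℕ) (m : Fin k → ℕ) (p : Fin k → ℕ → Pt) (L T : ℝ),
      1 ≤ k → 3 * k ≤ P.card →
      (∀ j, Set.InjOn (p j) (Set.Iio (m j))) →
      P = Finset.univ.biUnion (fun j => (range (m j)).image (p j)) →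
      (∀ j, pathLen (m j) (p j) ≤ L) → (∀ j, pathTurn (m j) (p j) ≤ T) →
      HasTriangle P (365 * (L ^ 2 * T * (k : ℝ) ^ 3) / (P.card : ℝ) ^ 3) ∧
      ∀ ε : ℝ, L ^ 2 * T * (k : ℝ) ^ 3 ≤ (P.card : ℝ) ^ (1 + ε) →
        HasTriangle P (365 * (P.card : ℝ) ^ (-2 + ε))) := by
  refine ⟨energy_zero, fun P δ h1 h2 h3 h4 => energy_exp h1 h2 h3 h4,
    fun P K h1 h2 h3 => doubling h1 h2 h3, fun P k h1 h2 h3 => few_short h1 h2 h3, ?_⟩
  intro P k m p L T hk hn hinj hP hL hT
  exact ⟨paths hk m p hinj hP hL hT hn, fun ε hε => paths_eps hk m p hinj hP hL hT hn hε⟩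

end Vale.Agent.Results.P036.StructuredSets
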